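import Vale.Agent.P283R.D.Sem
import Vale.Agent.P287D.Gm.Cl
import Vale.Agent.P287D.Cb.Row

/-!
# P283R, block D: projective space as the model of a field of rational functions

The canonical class of projective space pulls back to a b-divisor `Γ₀` whose discrepancies at the
places centred in the affine chart are the orders of the form `dz`.
-/

namespace Vale.Agent.P283R.D

open Vale.Agent.P287D Set
open Vale.Agent.P285N.Brep (jac Fr)

variable {n N : ℕ} {K : Type} [Field K] [Algebra ℂ K] {P : Pl K}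

theorem one_sy (z : Fin N → K) : 1 ∈ sy z := mem_sy.2 (.inl rfl)

theorem var_sy (z : Fin N → K) (j : Fin N) : z j ∈ sy z := mem_sy.2 (.inr ⟨j, rfl⟩)

theorem big {z : Fin N → K} (h : Rat z) : Big (mx (sy z)) := big_mx fun f => by
  have : IntermediateField.adjoin ℂ (range z) ≤ rts (sy z) :=
    IntermediateField.adjoin_le_iff.2 (by
      rintro _ ⟨j, rfl⟩
      simpa using div_mem_rts (var_sy z j) (one_sy z))
  exact isAlgebraic_algebraMap (⟨f, this (h.gen f)⟩ : rts (sy z))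

theorem mx_zero {z : Fin N → K} (h : ∀ j, z j ∈ P.ring) : mx (sy z) P = 0 := by
  simpa using (On.ch_of (P := P) (one_sy z) one_ne_zero fun g hg => by
    rcases mem_sy.1 hg with rfl | ⟨j, rfl⟩
    · simp
    · simpa using h j).eq

theorem sp_of (hK : FF K (n + 1)) {s : Finset K} {f : K} (hf : f ∈ s) (c : On.Ch (mx s) f P)
    (o : On n (mx s) P) {w : Fin N → K} (hw : ∀ i, w i ∈ P.ring)
    (hs : ∀ g ∈ s, g / f ∈ Algebra.adjoin ℂ (range w)) : Cb.Sp P (range w) := by
  have t := On.cd_mx hK hf c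
  rw [(On.on_iff_cd hK (smp_mx s)).1 o] at t
  have a : Algebra.IsAlgebraic (On.img P (On.Bf s f)) P.κ := On.alg_of_trdeg
    (by rw [Cb.trdeg_κ hK P]; exact Cardinal.natCast_lt_aleph0) (by rw [Cb.trdeg_κ hK P, t])
  refine Gm.sp_iff.2 ⟨range_subset_iff.2 hw, fun x => Gm.cl_le (S := P.rd '' On.Bf s f) ?_
    (mem_algebraicClosure_iff.2 (a.isAlgebraic x))⟩
  rintro _ ⟨b, hb, rfl⟩
  have e : On.Bf s f ≤ Algebra.adjoin ℂ (range w) :=
    Algebra.adjoin_le (by rintro _ ⟨g, hg, rfl⟩; exact hs g hg)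
  have := e hb
  rw [Algebra.adjoin_range_eq_range_aeval] at this
  obtain ⟨p, rfl⟩ := this
  have l : Algebra.adjoin ℂ (range fun i => P.rd (w i)) ≤
      (Gm.Cl (P.rd '' range w)).toSubalgebra :=
    Algebra.adjoin_le (by rintro _ ⟨i, rfl⟩; exact Gm.sub_Cl ⟨_, ⟨i, rfl⟩, rfl⟩)
  refine l ?_
  rw [Algebra.adjoin_range_eq_range_aeval]
  exact ⟨p, (Cb.rd_aeval hw p).symm⟩

theorem Rat.kap_zero {w : Fin (n + 1) → K} (h : Rat w) (s : Cb.Sp P (range w)) : kap w P = 0 := by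
  obtain ⟨D, hD⟩ := Cb.fr_of h.ff h.ind
  refine Gm.kap_zero h.ff hD s s.1 ?_ h.gen
  rintro j _ ⟨i, rfl⟩
  rw [hD.dual]
  split_ifs
  exacts [one_mem _, zero_mem _]

/-- the coordinates of the chart `z j ≠ 0` -/
noncomputable def cw (z : Fin N → K) (j : Fin N) : Fin N → K :=
  Function.update (fun i => z i / z j) j (z j)⁻¹

theorem jac_cw {z : Fin N → K} {D : Fin N → Derivation ℂ K K} (h : Fr z D) {j : Fin N}
    (h0 : z j ≠ 0) : jac D (cw z j) = -(z j)⁻¹ ^ (N + 1) := by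
  have e : (Matrix.of fun i k => D i (cw z j k)) =
      (z j)⁻¹ • (1 : Matrix (Fin N) (Fin N) K).updateRow j (-cw z j) := by
    ext i k
    by_cases a : k = j <;> by_cases b : i = j <;>
      simp [cw, a, b, h.dual, Derivation.leibniz_inv, Derivation.leibniz_div, Matrix.one_apply,
        Matrix.updateRow_apply, eq_comm (a := j)] <;> field_simp
  rw [jac, e, Matrix.det_smul, ← Matrix.cramer_transpose_apply, Matrix.transpose_one,
    Matrix.cramer_one]
  simp [cw, pow_succ]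

theorem Rat.chart {z : Fin N → K} (h : Rat z) (j : Fin N) : Rat (cw z j) := by
  obtain ⟨D, hD⟩ := Cb.fr_of h.ff h.ind
  have h0 := h.ind.ne_zero j
  refine ⟨(Cb.jac_ne_iff hD _).1 (by rw [jac_cw hD h0]; simp [h0]), fun x =>
    (IntermediateField.adjoin_le_iff.2 ?_ : _ ≤ IntermediateField.adjoin ℂ _) (h.gen x)⟩
  have m : ∀ i, cw z j i ∈ IntermediateField.adjoin ℂ (range (cw z j)) :=
    fun i => IntermediateField.subset_adjoin _ _ ⟨i, rfl⟩
  rintro _ ⟨i, rfl⟩
  by_cases a : i = j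
  · simpa [cw, a] using inv_mem (m j)
  · simpa [cw, a, h0] using div_mem (m i) (m j)

theorem bdy {z : Fin (n + 1) → K} (h : Rat z) (o : On n (mx (sy z)) P) :
    kap z P + (n + 2 : ℝ) * mx (sy z) P = 0 := by
  obtain ⟨f, hf, c⟩ := On.exists_ch ⟨1, one_sy z, one_ne_zero⟩ P
  have m : ∀ g ∈ sy z, g / f ∈ P.ring := fun g hg => c.mem _ (On.Bf_le c.ne (On.mem_Bf hg))
  rcases mem_sy.1 hf with rfl | ⟨j, rfl⟩
  · have k : ∀ j, z j ∈ P.ring := fun j => by simpa using m _ (var_sy z j)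
    rw [mx_zero k, h.kap_zero (sp_of h.ff hf c o k fun g hg => ?_)]
    · simp
    rcases mem_sy.1 hg with rfl | ⟨j, rfl⟩
    · simp
    · simpa using Algebra.subset_adjoin (mem_range_self j)
  obtain ⟨D, hD⟩ := Cb.fr_of h.ff h.ind
  have k := (h.chart j).kap_zero (sp_of h.ff hf c o (w := cw z j) (fun i => ?_) fun g hg => ?_)
  · rw [Cb.kap_chg hD ((Cb.jac_ne_iff hD _).2 (h.chart j).ind), jac_cw hD c.ne, dv_neg, dv_pow,
      dv_inv] at k
    have := c.eq
    simp only [Pi.add_apply, Pi.smul_apply, Pi.neg_apply, dv_apply, smul_eq_mul] at k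
    push_cast at k
    linear_combination k + (n + 2 : ℝ) * this
  · by_cases a : i = j
    · simpa [cw, a] using m _ (one_sy z)
    · simpa [cw, a] using m _ (var_sy z i)
  have q : ∀ i, cw z j i ∈ Algebra.adjoin ℂ (range (cw z j)) :=
    fun i => Algebra.subset_adjoin ⟨i, rfl⟩
  rcases mem_sy.1 hg with rfl | ⟨i, rfl⟩
  · simpa [cw] using q j
  by_cases a : i = j
  · simp [a, c.ne]
  · simpa [cw, a] using q i

theorem klt {z : Fin (n + 1) → K} (h : Rat z) (P : Pl K) :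
    -1 < kap z P + (n + 2 : ℝ) * mx (sy z) P := by
  by_cases k : ∀ j, z j ∈ P.ring
  · have := Cb.kap_nonneg h.ff k
    rw [mx_zero k]
    linarith
  have a : ∀ j, -mx (sy z) P ≤ P.ord (z j) := fun j => by
    have := dv_add_mx_nonneg (var_sy z j) (h.ind.ne_zero j) P
    simp only [Pi.add_apply, dv_apply, Pi.zero_apply] at this
    linarith
  obtain ⟨j, hj⟩ := not_forall.1 k
  have b : (P.ord (z j) : ℝ) < 0 := by
    exact_mod_cast not_le.1 fun e => hj (Cb.mem_ord e)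
  have s := (Finset.sum_le_sum fun j _ => a j).trans (Cb.sum_le_kap h.ff h.ind P)
  simp only [Finset.sum_const, Finset.card_univ, Fintype.card_fin, nsmul_eq_mul] at s
  push_cast at s
  linarith [a j]

theorem pn {z : Fin (n + 1) → K} (h : Rat z) : ∃ Γ₀, Dsc (mx (sy z)) Γ₀ ∧ Bdy n (mx (sy z)) Γ₀ ∧
    Klt (n + 1) Γ₀ ∧ ∀ P, (∀ j, z j ∈ P.ring) → dsc (n + 1) Γ₀ P = kap z P := by
  obtain ⟨f, -, e⟩ := Cb.cn_kap h.ff h.ind
  have d : ∀ P, dsc (n + 1) (dv f - (n + 2 : ℝ) • mx (sy z)) P =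
      kap z P + (n + 2 : ℝ) * mx (sy z) P := fun P => by
    simp only [dsc, e, Pi.add_apply, Pi.sub_apply, Pi.smul_apply, smul_eq_mul]
    ring
  exact ⟨_, (Dsc.dv (smp_mx _) f).sub ((Dsc.refl (smp_mx _)).smul _),
    fun P o => (d P).trans_le (bdy h o).le, fun P => (klt h P).trans_eq (d P).symm,
    fun P k => by rw [d, mx_zero k, mul_zero, add_zero]⟩

end Vale.Agent.P283R.D
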