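import Vale.Agent.P287D.On.Urc
import Vale.Agent.P287D.Ad.Eff

/-!
# P283R, block D: semicontinuity of the log discrepancy, the b-divisor form

`Γ₀ + G` is lc at the point `x`, and the place `u` centred at `x` computes this.  If the effective
divisor `D` misses the centres of all places `R` with `A R ≤ ρ * M R`, then `Γ₀ + G + D` is lc at
the places centred at `x` (connectedness of the non-klt locus).
-/

namespace Vale.Agent.P283R.D

open Vale.Agent.P287D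

variable {n N : ℕ} {K : Type} [Field K] [Algebra ℂ K]

open Classical in
/-- the linear system `1, z` -/
noncomputable def sy (z : Fin N → K) : Finset K := insert 1 (Finset.univ.image z)

/-- `K` is the field of rational functions in `z` -/
structure Rat (z : Fin N → K) : Prop where
  ind : AlgebraicIndependent ℂ z
  gen : ∀ x, x ∈ IntermediateField.adjoin ℂ (Set.range z)

theorem mem_sy {z : Fin N → K} {g : K} : g ∈ sy z ↔ g = 1 ∨ ∃ j, z j = g := by simp [sy]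

theorem Rat.ff {z : Fin N → K} (h : Rat z) : FF K N := ⟨z, h.ind, by
  rw [show IntermediateField.adjoin ℂ (Set.range z) = ⊤ from eq_top_iff.2 fun x _ => h.gen x]
  exact Module.Finite.of_surjective (Algebra.linearMap (⊤ : IntermediateField ℂ K) K)
    fun x => ⟨⟨x, trivial⟩, rfl⟩⟩

theorem semi (hK : FF K (n + 1)) {Λ Λ' Γ₀ G D M : BD K} {x u : Pl K} {c ρ : ℝ} (hΛ : Smp Λ)
    (hb : Big Λ) (pt : ∀ R, CLe Λ R x → CLe Λ x R) (d0 : Dsc Λ Γ₀) (b0 : Bdy n Λ Γ₀)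
    (k0 : Klt (n + 1) Γ₀) (hG : 0 ≤ G + D) (hD : 0 ≤ D) (hM : 0 ≤ M) (hρ : 0 ≤ ρ) (hc : 0 ≤ c)
    (nG : Nef (c • Λ - (G + D))) (nM : Nef (c • Λ - M)) (d1 : Dsc Λ' Λ) (d2 : Dsc Λ' D)
    (lc : ∀ R, CLe Λ x R → G R ≤ dsc (n + 1) Γ₀ R + 1) (hu : CLe Λ u x)
    (u1 : dsc (n + 1) Γ₀ u + 1 ≤ G u) (u2 : dsc (n + 1) Γ₀ u + 1 ≤ ρ * M u)
    (far : ∀ R, CLe Λ x R → dsc (n + 1) Γ₀ R + 1 ≤ ρ * M R → ∀ Q, CLe Λ' Q R → D Q = 0)
    (v : Pl K) (hv : CLe Λ v x) : (G + D) v ≤ dsc (n + 1) Γ₀ v + 1 := by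
  by_contra hn
  rw [not_le] at hn
  have a0 : ∀ R, 0 < dsc (n + 1) Γ₀ R + 1 := fun R => by linarith [k0 R]
  have g0 : 0 < (G + D) v := (a0 v).trans hn
  obtain ⟨η, h0, h1, h2⟩ : ∃ η : ℝ, 0 < η ∧ η < 1 ∧
      dsc (n + 1) Γ₀ v + 1 ≤ (1 - η) * (G + D) v := by
    refine ⟨1 - (dsc (n + 1) Γ₀ v + 1) / (G + D) v, ?_, ?_, ?_⟩
    · rw [sub_pos, div_lt_one g0]; exact hn
    · linarith [div_pos (a0 v) g0]
    · rw [sub_sub_cancel, div_mul_cancel₀ _ g0.ne']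
  set Γ : BD K := Γ₀ + (1 - η) • (G + D) + (η * ρ) • M with hΓ
  have e : ∀ R, dsc (n + 1) Γ R =
      dsc (n + 1) Γ₀ R - (1 - η) * (G R + D R) - η * ρ * M R := fun R => by
    simp only [hΓ, dsc, Pi.sub_apply, Pi.add_apply, Pi.smul_apply, smul_eq_mul]; ring
  have h3 : 0 ≤ 1 - η := by linarith
  have h4 : 0 ≤ η * ρ := mul_nonneg h0.le hρ
  obtain ⟨ε, hε, -, s0⟩ := id d0
  have s1 : Smp (ε⁻¹ • Λ - Γ₀) := by
    have := s0.smul (inv_nonneg.2 hε.le)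
    rwa [smul_sub, inv_smul_smul₀ hε.ne'] at this
  have n1 : Nef (((1 - η) * c + η * ρ * c + ε⁻¹) • Λ - Γ) := by
    convert ((nG.smul h3).add (nM.smul h4)).add s1.nef using 1
    rw [hΓ]; module
  have n0 : Nef (((1 - η) * c + η * ρ * c + ε⁻¹) • Λ - Γ₀) := by
    convert ((hΛ.smul (add_nonneg (mul_nonneg h3 hc) (mul_nonneg h4 hc))).add s1).nef using 1
    module
  have up : ∀ (t : ℝ) (Z : BD K), (t + 1) • Λ - Z = Λ + (t • Λ - Z) := fun t Z => by module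
  have dn : ∀ R, 0 ≤ D R := hD
  have mn : ∀ R, 0 ≤ M R := hM
  have dv0 : D v ≠ 0 := fun h => by
    have := lc v (pt v hv)
    have h5 : (G + D) v = G v := by simp [h]
    rw [h5] at hn; linarith
  obtain ⟨a, ha, b, hb', ax, ⟨P, p1, p2⟩, -, -, R, r1, r2⟩ := On.urc n K hK Λ Λ Λ' Γ Γ₀
    ((1 - η) * c + η * ρ * c + ε⁻¹ + 1) x {a | D a = 0} hΛ hb hΛ d1.smp (.refl hΛ) d1
    (fun P p => by
      have := b0 P p
      have h5 := mul_nonneg h3 (hG P)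
      have h6 := mul_nonneg h4 (mn P)
      rw [e]; simp only [Pi.add_apply] at h5; linarith) b0 k0
    (up _ Γ ▸ hΛ.nef.add n1) (up _ Γ ▸ hb.add_nef n1) (up _ Γ₀ ▸ hΛ.nef.add n0)
    (up _ Γ₀ ▸ hb.add_nef n0) pt
    ⟨u, far u (pt u hu) u2 u (.refl _ _), hu, u, by
      have h5 := mul_le_mul_of_nonneg_left u1 h3
      have h6 := mul_le_mul_of_nonneg_left u2 h0.le
      have h7 := mul_nonneg h3 (dn u)
      rw [e]; nlinarith, .refl _ _⟩
    ⟨v, dv0, hv, v, by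
      have h6 := mul_nonneg h4 (mn v)
      rw [e]; simp only [Pi.add_apply] at h2; linarith, .refl _ _⟩
  have dP : D P = 0 := (dn P).eq_or_lt.resolve_right (fun h =>
    (Ae.cle_dsc d2 hD p2 h).ne' ha) |>.symm
  have xP : CLe Λ x P := (pt a ax).trans (p2.of_dsc d1)
  have h5 := mul_le_mul_of_nonneg_left (lc P xP) h3
  have h6 : dsc (n + 1) Γ₀ P + 1 ≤ ρ * M P := by
    refine le_of_mul_le_mul_left ?_ h0
    rw [e, dP] at p1; nlinarith
  exact (Ae.cle_dsc d2 hD r2 ((dn b).lt_of_ne' hb')).ne' (far P xP h6 R (r1.trans p2))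

end Vale.Agent.P283R.D
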