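import Vale.Agent.P283R.D.Core
import Vale.Agent.P283R.D.Pn
import Vale.Agent.P283R.Co.St
import Vale.Agent.P283R.Ty.B

/-!
# P283R, block D: step 6 in the words of the core statements
-/

open Set MvPolynomial
open MvPowerSeries (truncTotal)
open Vale.Agent.P297Z

namespace Vale.Agent.P283R.D

open Vale.Agent.P287D Vale.Agent.P283R.Co

variable {n N : ℕ} {K : Type} [Field K] [Algebra ℂ K]

theorem aeval_z0 (p : MvPolynomial (Fin N) ℂ) :
    aeval (z0 N) p = algebraMap (MvPolynomial (Fin N) ℂ) (K0 N) p :=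
  DFunLike.congr_fun (MvPolynomial.algHom_ext (f := aeval (z0 N))
    (g := IsScalarTower.toAlgHom ℂ (MvPolynomial (Fin N) ℂ) (K0 N)) fun j => by simp [z0]) p

theorem rat0 : Rat (z0 N) where
  ind := fun p q e => IsFractionRing.injective (MvPolynomial (Fin N) ℂ) (K0 N) (by
    rw [← aeval_z0, ← aeval_z0]; exact e)
  gen := fun x => by
    obtain ⟨p, q, -, rfl⟩ := IsFractionRing.div_surjective (A := MvPolynomial (Fin N) ℂ) x
    exact (IntermediateField.mem_adjoin_range_iff ℂ _ _).2 ⟨p, q, by rw [aeval_z0, aeval_z0]⟩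

theorem aeval_adj (z : Fin N → K) (p : MvPolynomial (Fin N) ℂ) :
    aeval z p ∈ Algebra.adjoin ℂ (range z) := by
  rw [Algebra.adjoin_range_eq_range_aeval]; exact ⟨p, rfl⟩

theorem mu_pos {z : Fin (n + 1) → K} {P : Pl K} (h : ∀ j, 0 < P.ord (z j)) : 0 < mu z P := by
  obtain ⟨j, e⟩ := exists_mu (z := z) (fun j w => by simpa [w] using h j) P
  rw [e]; exact_mod_cast h j

theorem sub_pow {z : Fin (n + 1) → K} {P : Pl K} (h : ∀ j, 0 < P.ord (z j)) {k : ℕ}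
    {p : MvPolynomial (Fin (n + 1)) ℂ} (hp : p ∈ idealOfVars _ ℂ ^ k) {E : ℝ}
    (hE : E ≤ k * mu z P) : aeval z p ∈ P.sub (-E) := by
  have z0 : ∀ j, z j ≠ 0 := fun j w => by simpa [w] using h j
  obtain ⟨j, e⟩ := exists_mu z0 P
  refine or_iff_not_imp_left.2 fun p0 => ?_
  have := Ty.le_ord P (aeval z : MvPolynomial (Fin (n + 1)) ℂ →ₐ[ℂ] K)
    (Ty.aeval_ring P (of_pos h)) (x := X) (m := P.ord (z j)) (fun i => Or.inr (by
      have := mu_le z0 P i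
      rw [e] at this
      simpa using this)) hp p0
  have k2 : (k : ℝ) * P.ord (z j) ≤ P.ord (aeval z p) := by exact_mod_cast this
  rw [e] at hE
  linarith

theorem ord_mon {z : Fin N → K} (h : ∀ j, z j ≠ 0) (P : Pl K) (c : Fin N → ℕ) :
    (P.ord (∏ j, z j ^ c j) : ℝ) = ∑ j, (c j : ℝ) * P.ord (z j) := by
  rw [P.ord_prod _ fun j _ => pow_ne_zero _ (h j)]
  simp [Pl.ord_pow]

theorem mx_mon {z : Fin N → K} (h : ∀ j, z j ≠ 0) {C : Finset (Fin N → ℕ)} (hC : C.Nonempty) :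
    ∃ U : Finset K, Nz U ∧ (∀ g ∈ U, g ∈ Algebra.adjoin ℂ (range z)) ∧ ∀ P : Pl K,
      (∀ c ∈ C, -mx U P ≤ ∑ j, (c j : ℝ) * P.ord (z j)) ∧
        ∃ c ∈ C, -mx U P = ∑ j, (c j : ℝ) * P.ord (z j) := by
  classical
  have m0 : ∀ c : Fin N → ℕ, ∏ j, z j ^ c j ≠ 0 := fun c =>
    Finset.prod_ne_zero_iff.2 fun j _ => pow_ne_zero _ (h j)
  have nz : Nz (C.image fun c => ∏ j, z j ^ c j) :=
    let ⟨c, hc⟩ := hC; ⟨_, Finset.mem_image_of_mem _ hc, m0 c⟩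
  refine ⟨_, nz, fun x hx => ?_, fun P => ⟨fun c hc => ?_, ?_⟩⟩
  · obtain ⟨c, -, rfl⟩ := Finset.mem_image.1 hx
    exact prod_mem fun j _ => pow_mem (Algebra.subset_adjoin (mem_range_self j)) _
  · have := dv_add_mx_nonneg (Finset.mem_image_of_mem (fun c => ∏ j, z j ^ c j) hc) (m0 c) P
    rw [Pi.add_apply, dv_apply, ord_mon h, Pi.zero_apply] at this
    linarith
  · obtain ⟨g, hg, -, e⟩ := P.exists_mz nz
    obtain ⟨d, hd, rfl⟩ := Finset.mem_image.1 hg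
    exact ⟨d, hd, by rw [mx_apply, e, ← ord_mon h]; simp⟩

theorem mid {Q m k : ℕ} (hQ : 0 < Q) (hm : 0 < m) {Γ₀ : BD (K0 (n + 1))}
    (hb : Big (mx (sy (z0 (n + 1))))) (d0 : Dsc (mx (sy (z0 (n + 1)))) Γ₀)
    (b0 : Bdy n (mx (sy (z0 (n + 1)))) Γ₀) (k0 : Klt (n + 1) Γ₀)
    (e0 : ∀ P, (∀ j, z0 (n + 1) j ∈ P.ring) → dsc (n + 1) Γ₀ P = kap (z0 (n + 1)) P)
    {g g' : MvPolynomial (Fin (n + 1)) ℂ} {C : Finset (Fin (n + 1) → ℕ)} {c₀ ρ : ℝ} (hc : 0 < c₀)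
    (hk : Q * ρ < k) (ha : OutA Q m g k C c₀) (hu : OutB Q m g k C c₀ ρ) (ho : OutC m C)
    (g0 : g' ≠ 0) (hg : g' - g ∈ idealOfVars _ ℂ ^ k) (v : Pl (K0 (n + 1)))
    (hv : ∀ j, 0 < v.ord (z0 (n + 1) j)) : ∃ c ∈ C, (v.ord (aeval (z0 (n + 1)) g') : ℝ) / Q +
      (∑ j, (c j : ℝ) * v.ord (z0 (n + 1) j)) / m < Co.A0 (z0 (n + 1)) v := by
  have h : Rat (z0 (n + 1)) := rat0
  obtain ⟨u, μ, E, B, l, u1, u2⟩ := hu
  have ha := ha _ h.ff _ h.ind
  simp only [Co.A0] at ha u1 u2 ⊢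
  generalize z0 (n + 1) = z at *
  have z0 := h.ind.ne_zero
  have hC : C.Nonempty := let ⟨c, a, _⟩ := ho 0 le_rfl; ⟨c, a⟩
  have f0 : aeval z g' ≠ 0 := fun e => g0 (h.ind (e.trans (map_zero _).symm))
  have q0 : (0 : ℝ) < Q := by exact_mod_cast hQ
  have m0 : (0 : ℝ) < m := by exact_mod_cast hm
  have hu : ∀ j, 0 < u.ord (z j) := fun j => by exact_mod_cast l.pos.trans_le (l.mu j)
  have mu1 : μ ≤ mu z u := by
    obtain ⟨j, e⟩ := exists_mu z0 u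
    exact e ▸ l.mu j
  have ek : E ≤ k * mu z u := l.ek.trans (mul_le_mul_of_nonneg_left mu1 (Nat.cast_nonneg k))
  obtain ⟨U, U0, U1, U2⟩ := mx_mon z0 hC
  have r := core h hb d0 b0 k0 e0 (aeval_adj z g') f0 U0 U1
    (a := (Q : ℝ)⁻¹) (b := (m : ℝ)⁻¹) (c := c₀) (ρ := ρ) (k := k) (by positivity) (by positivity)
    hc.le (by rwa [inv_mul_eq_div, lt_div_iff₀' q0])
    (fun P hP => by
      have := ha P (mu z P) (min (P.ord (aeval z g') : ℝ) (k * mu z P)) _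
        ⟨mu_pos hP, mu_le z0 P, min_le_right _ _, ?_, (U2 P).1⟩
      · rw [div_eq_inv_mul, div_eq_inv_mul] at this
        linarith
      · have a := sub_mem (show aeval z g' ∈ P.sub (-min (P.ord (aeval z g') : ℝ) (k * mu z P))
          from Or.inr (by linarith [min_le_left (P.ord (aeval z g') : ℝ) (k * mu z P)]))
          (sub_pow hP hg (min_le_right _ _))
        rw [← map_sub, sub_sub_cancel] at a
        exact a.imp (fun e => h.ind (e.trans (map_zero _).symm)) fun e => by linarith)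
    (fun P hP _ => by
      obtain ⟨c, a, e⟩ := ho (fun j => P.ord (z j)) fun j => by
        simpa using Pl.ord_nonneg_of_mem _ (hP j)
      have e1 := ((U2 P).1 c a).trans (e.trans
        (mul_le_mul_of_nonneg_left (Cb.sum_le_kap h.ff h.ind P) m0.le))
      rwa [← mul_neg, inv_mul_le_iff₀ m0]) hu
    (by
      obtain ⟨c, a, e⟩ := (U2 u).2
      have e1 := l.bc c a
      rw [← e] at e1
      have a1 := add_mem (sub_pow hu hg ek) (show aeval z g ∈ u.sub (-E) from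
        l.eg.imp (fun w => by rw [w, map_zero]) fun w => by linarith)
      rw [← map_add, sub_add_cancel] at a1
      have e2 : E ≤ min (u.ord (aeval z g') : ℝ) (k * mu z u) :=
        le_min (by linarith [a1.resolve_left f0]) ek
      have e3 := mul_le_mul_of_nonneg_left e1 (inv_nonneg.2 m0.le)
      have e4 := mul_le_mul_of_nonneg_left e2 (inv_nonneg.2 q0.le)
      have e5 := mul_le_mul_of_nonneg_left mu1 hc.le
      rw [div_eq_inv_mul, div_eq_inv_mul] at u1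
      linarith)
    (by
      have a0 : 0 < ρ * μ := by linarith [k0 u, e0 u (of_pos hu)]
      linarith [mul_le_mul_of_nonneg_left mu1 (pos_of_mul_pos_left a0 l.pos.le).le]) v hv
  obtain ⟨c, a, e⟩ := (U2 v).2
  refine ⟨c, a, ?_⟩
  rw [← e, div_eq_inv_mul, div_eq_inv_mul]
  linarith [mul_pos hc (mu_pos hv)]

/-- **D**: semicontinuity -/
theorem dd {Q m : ℕ} (hN : 0 < N) (hQ : 0 < Q) (hm : 0 < m) {M : AddSubgroup (Fin N → ℤ)}
    {b : Fin N → ℤ} {f : MvPowerSeries (Fin N) ℂ} (h : Out Q m M b f) :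
    ∃ (C : Finset (Fin N → ℕ)) (k : ℕ), Chr Q m M b C ∧ ∀ g : MvPolynomial (Fin N) ℂ, g ≠ 0 →
      g - truncTotal k f ∈ idealOfVars _ ℂ ^ k → ∀ P : Pl (K0 N), (∀ j, 0 < P.ord (z0 N j)) →
        ∃ c ∈ C, (P.ord (aeval (z0 N) g) : ℝ) / Q + (∑ j, (c j : ℝ) * P.ord (z0 N j)) / m <
          Co.A0 (z0 N) P := by
  obtain ⟨n, rfl⟩ := Nat.exists_eq_succ_of_ne_zero hN.ne'
  obtain ⟨C, c₀, ρ, k, hc, hk, ch, ha, hu, ho⟩ := h
  obtain ⟨Γ₀, d0, b0, k0, e0⟩ := pn (rat0 (N := n + 1))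
  exact ⟨C, k, ch, fun g g0 hg => mid hQ hm (big rat0) d0 b0 k0 e0 hc hk ha hu ho g0 hg⟩

/-- **D** for the truncations -/
theorem dd' {Q m : ℕ} (hN : 0 < N) (hQ : 0 < Q) (hm : 0 < m) {M : AddSubgroup (Fin N → ℤ)}
    {b : Fin N → ℤ} {f : MvPowerSeries (Fin N) ℂ} (h : Out Q m M b f) :
    ∃ (C : Finset (Fin N → ℕ)) (k : ℕ), Chr Q m M b C ∧ ∀ k', k ≤ k' → truncTotal k' f ≠ 0 →
      ∀ P : Pl (K0 N), (∀ j, 0 < P.ord (z0 N j)) →
        ∃ c ∈ C, (P.ord (aeval (z0 N) (truncTotal k' f)) : ℝ) / Q +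
          (∑ j, (c j : ℝ) * P.ord (z0 N j)) / m < Co.A0 (z0 N) P := by
  obtain ⟨C, k, ch, e⟩ := dd hN hQ hm h
  refine ⟨C, k, ch, fun k' hk g0 => e _ g0 ((mem_pow_idealOfVars_iff' ..).2 fun d hd => ?_)⟩
  rw [coeff_sub, MvPowerSeries.coeff_truncTotal _ hd,
    MvPowerSeries.coeff_truncTotal _ (hd.trans_le hk), sub_self]

end Vale.Agent.P283R.D
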