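import Vale.Agent.P283R.D.Sem
import Vale.Agent.P287D.Ru.Pt

/-!
# P283R, block D: monomial places
-/

open Set Filter
open Vale.Agent.P285N.Brep (jac Fr)
open Vale.Agent.P297Z

namespace Vale.Agent.P283R.D

open Vale.Agent.P287D Vale.Agent.P287D.Cb

variable {n : ℕ} {K : Type} [Field K] [Algebra ℂ K] {z : Fin (n + 1) → K}

theorem jac_mon {D : Fin (n + 1) → Derivation ℂ K K} (hD : Fr z D)
    (w : Fin n → ℕ) : jac D (Fin.cons (z 0) fun i => z i.succ / z 0 ^ w i) =
      ∏ i, (z 0 ^ w i)⁻¹ := by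
  have d0 : ∀ i, D i (z 0) = if i = 0 then 1 else 0 := fun i => hD.dual i 0
  rw [jac, Matrix.det_succ_column_zero, Fin.sum_univ_succ]
  simp only [Matrix.of_apply, Fin.cons_zero, d0, Fin.succ_ne_zero, if_false, if_true,
    mul_zero, zero_mul, Finset.sum_const_zero, add_zero, Fin.succAbove_zero]
  rw [show Matrix.submatrix _ Fin.succ Fin.succ = Matrix.diagonal fun i => (z 0 ^ w i)⁻¹ from ?_]
  · simp
  · ext i j
    have e : D i.succ (z 0 ^ w j)⁻¹ = 0 := by
      rw [Derivation.leibniz_inv, Derivation.leibniz_pow, d0]; simp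
    rw [Matrix.submatrix_apply, Matrix.of_apply, Fin.cons_succ, div_eq_mul_inv,
      Derivation.leibniz, e, hD.dual, Matrix.diagonal_apply]
    by_cases k : i = j <;> simp [k]

theorem mon0 (h : Rat z) (w : Fin n → ℕ) : ∃ P : Pl K, P.ord (z 0) = 1 ∧
    (∀ i, P.ord (z i.succ) = w i) ∧ kap z P = ∑ i, (w i : ℝ) := by
  have hK := h.ff
  have t0 : z 0 ≠ 0 := h.ind.ne_zero 0
  obtain ⟨D, hD⟩ := fr_of hK h.ind
  have ej := jac_mon hD w
  have j0 : jac D (Fin.cons (z 0) fun i => z i.succ / z 0 ^ w i) ≠ 0 := by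
    rw [ej]; exact Finset.prod_ne_zero_iff.2 fun i _ => inv_ne_zero (pow_ne_zero _ t0)
  have hx := (jac_ne_iff hD _).1 j0
  have h1 := On.trdeg_one (hK.basis hx) 0
  set C := IntermediateField.adjoin ℂ
    ((Fin.cons (z 0) fun i => z i.succ / z 0 ^ w i : Fin (n + 1) → K) '' {0}ᶜ)
  have hC : ∀ i, z i.succ / z 0 ^ w i ∈ C := fun i =>
    IntermediateField.subset_adjoin _ _ ⟨i.succ, Fin.succ_ne_zero i, rfl⟩
  have e : ∀ i : Fin n, z i.succ = z i.succ / z 0 ^ w i * z 0 ^ w i := fun i =>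
    (div_mul_cancel₀ _ (pow_ne_zero _ t0)).symm
  have co : Ru.Co C (z 0) := eq_top_iff.2 fun x _ => by
    have m0 : z 0 ∈ IntermediateField.adjoin C {z 0} := IntermediateField.subset_adjoin _ _ rfl
    have : IntermediateField.adjoin ℂ (range z) ≤
        (IntermediateField.adjoin C {z 0}).restrictScalars ℂ := by
      refine IntermediateField.adjoin_le_iff.2 (range_subset_iff.2 fun j => ?_)
      refine Fin.cases m0 (fun i => ?_) j
      rw [e]
      exact mul_mem ((IntermediateField.adjoin C {z 0}).algebraMap_mem ⟨_, hC i⟩) (pow_mem m0 _)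
    exact this (h.gen x)
  obtain ⟨P, a, k⟩ := Ru.liou hK h1 (co.trans h1)
  have o := co.ord_one a k
  refine ⟨P, o, fun i => ?_, ?_⟩
  · rw [e, Pl.ord_mul _ (div_ne_zero (h.ind.ne_zero _) (pow_ne_zero _ t0)) (pow_ne_zero _ t0),
      Ru.hor_ord a (hC i), Pl.ord_pow, o]
    simp
  · have b := Ru.kap_pt hK (hx.comp Fin.succ (Fin.succ_injective _)) hC a o
    have c := congrFun (kap_chg hD j0) P
    rw [ej, Pi.add_apply, dv_apply, P.ord_prod _ fun i _ => inv_ne_zero (pow_ne_zero _ t0)] at c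
    simp only [Pl.ord_inv, Pl.ord_pow, o, mul_one, Finset.sum_neg_distrib] at c
    push_cast at c
    exact eq_of_sub_eq_zero (by rw [sub_eq_add_neg, ← c]; exact b)

theorem Rat.perm {N : ℕ} {z : Fin N → K} (h : Rat z) (σ : Equiv.Perm (Fin N)) : Rat (z ∘ σ) :=
  ⟨h.ind.comp σ σ.injective, fun x => by rw [σ.surjective.range_comp]; exact h.gen x⟩

/-- the monomial place of the weight `w` -/
theorem mon (h : Rat z) (w : Fin (n + 1) → ℕ) (j0 : Fin (n + 1)) (e : w j0 = 1) :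
    ∃ P : Pl K, (∀ j, P.ord (z j) = w j) ∧ kap z P + 1 = ∑ j, (w j : ℝ) := by
  obtain ⟨P, a, b, c⟩ := mon0 (h.perm (Equiv.swap 0 j0)) fun i => w (Equiv.swap 0 j0 i.succ)
  refine ⟨P, fun j => ?_, ?_⟩
  · obtain ⟨i, rfl⟩ := (Equiv.swap 0 j0).surjective j
    refine Fin.cases ?_ (fun i => b i) i
    rw [Equiv.swap_apply_left, e]
    simpa using a
  · rw [kap_perm h.ff] at c
    rw [← Equiv.sum_comp (Equiv.swap 0 j0), Fin.sum_univ_succ, c, Equiv.swap_apply_left, e]
    simp [add_comm]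

/-- the inequality on the boundary of the orthant -/
theorem lim (h : Rat z) (C : Finset (Fin (n + 1) → ℕ)) (m : ℝ)
    (H : ∀ P : Pl K, (∀ j, 0 < P.ord (z j)) →
      ∃ c ∈ C, ∑ j, (c j : ℝ) * P.ord (z j) ≤ m * (kap z P + 1))
    (w : Fin (n + 1) → ℕ) (e : ∃ j, w j = 0) :
    ∃ c ∈ C, ∑ j, (c j : ℝ) * w j ≤ m * ∑ j, (w j : ℝ) := by
  by_contra hn
  push Not at hn
  obtain ⟨j0, e⟩ := e
  obtain ⟨k, hk⟩ := ((eventually_all_finset C).2 fun c hc =>
    (tendsto_natCast_atTop_atTop.atTop_mul_const (sub_pos.2 (hn c hc))).eventually_gt_atTop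
      (m * (n + 1))).exists
  obtain ⟨P, a, b⟩ := mon h (fun j => k * w j + 1) j0 (by simp [e])
  obtain ⟨c, hc, l⟩ := H P fun j => by rw [a]; positivity
  have h0 : 0 ≤ ∑ j, (c j : ℝ) := by positivity
  simp only [a, b] at l
  push_cast at l
  simp only [mul_add, mul_one, Finset.sum_add_distrib, mul_left_comm _ (k : ℝ),
    ← Finset.mul_sum, Finset.sum_const, Finset.card_univ, Fintype.card_fin, nsmul_eq_mul] at l
  push_cast at l
  have := hk c hc
  nlinarith

end Vale.Agent.P283R.D
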