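import Vale.Agent.P283R.D.Sem
import Vale.Agent.P287D.On.Cen
import Vale.Agent.P287D.Cb.Kap

/-!
# P283R, block D: centres on projective space
-/

open Set
open Vale.Agent.P297Z

namespace Vale.Agent.P283R.D

open Vale.Agent.P287D

variable {N : ℕ} {K : Type} [Field K] [Algebra ℂ K] {z : Fin N → K} {P Q R x : Pl K} {f g : K}

theorem ch_one (h : ∀ j, z j ∈ P.ring) : On.Ch (mx (sy z)) 1 P :=
  On.ch_of (by simp [sy]) one_ne_zero fun g hg => by
    rw [div_one]
    simp only [sy, Finset.mem_insert, Finset.mem_image, Finset.mem_univ, true_and] at hg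
    rcases hg with rfl | ⟨j, rfl⟩
    exacts [one_mem _, h j]

theorem lam_zero (h : ∀ j, z j ∈ P.ring) : mx (sy z) P = 0 := by simpa using (ch_one h).eq

theorem bf_eq (z : Fin N → K) : On.Bf (sy z) 1 = Algebra.adjoin ℂ (range z) := by
  refine le_antisymm (Algebra.adjoin_le ?_) (Algebra.adjoin_le ?_)
  · rintro _ ⟨g, hg, rfl⟩
    rcases mem_sy.1 hg with rfl | ⟨j, rfl⟩
    · simp
    · simpa using Algebra.subset_adjoin (R := ℂ) (mem_range_self (f := z) j)
  · rintro _ ⟨j, rfl⟩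
    simpa using On.mem_Bf (s := sy z) (f := 1) (mem_sy.2 (Or.inr ⟨j, rfl⟩))

theorem mem_af (hg : g ∈ Algebra.adjoin ℂ (range z)) : g ∈ On.Af (mx (sy z)) 1 :=
  On.Bf_le one_ne_zero (bf_eq z ▸ hg)

theorem mem_ring (h : ∀ j, z j ∈ P.ring) (hg : g ∈ Algebra.adjoin ℂ (range z)) : g ∈ P.ring :=
  (ch_one h).mem g (mem_af hg)

theorem of_pos (h : ∀ j, 0 < P.ord (z j)) (j : Fin N) : z j ∈ P.ring :=
  (Pl.ord_nonneg_iff _ fun e => by simpa [e] using h j).1 (h j).le

/-- a place through the origin -/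
theorem ring_of_cle (hx : ∀ j, 0 < x.ord (z j)) (e : CLe (mx (sy z)) x R) (j : Fin N) :
    z j ∈ R.ring :=
  ((ch_one (of_pos hx)).of_cle e).mem _ (mem_af (Algebra.subset_adjoin ⟨j, rfl⟩))

/-- a place centred at the origin -/
theorem pos_of_cle (hx : ∀ j, 0 < x.ord (z j)) (e : CLe (mx (sy z)) R x) (j : Fin N) :
    0 < R.ord (z j) := by
  have z0 : ∀ j, z j ≠ 0 := fun j w => by simpa [w] using hx j
  have a : ∀ j, 0 < (R.ord (z j) : ℝ) + mx (sy z) R := fun j =>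
    e _ ((sec_of_mem (mem_sy.2 (Or.inr ⟨j, rfl⟩))).rep (z0 j)) (by
      rw [Pi.add_apply, lam_zero (of_pos hx), add_zero, dv_apply]; exact_mod_cast hx j)
  obtain ⟨g, hg, -, k⟩ := R.exists_mz (s := sy z) ⟨1, mem_sy.2 (Or.inl rfl), one_ne_zero⟩
  rcases mem_sy.1 hg with rfl | ⟨i, rfl⟩
  · have := a j
    rw [mx_apply, k] at this
    simpa using this
  · have := a i
    rw [mx_apply, k] at this
    simp at this

theorem Rat.af (h : Rat z) (hg : g ∈ On.Af (mx (sy z)) 1) : g ∈ Algebra.adjoin ℂ (range z) := by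
  have i := On.int_Af h.ff (mem_sy.2 (Or.inl rfl)) one_ne_zero g hg
  rw [bf_eq] at i
  have : IsIntegrallyClosed (Algebra.adjoin ℂ (range z)) :=
    IsIntegrallyClosed.of_equiv h.ind.aevalEquiv.toRingEquiv
  have : IsFractionRing (Algebra.adjoin ℂ (range z)) K := IsFractionRing.of_field _ _ fun y => by
    obtain ⟨p, hp, q, hq, e⟩ := IntermediateField.mem_adjoin_iff_div.1 (h.gen y)
    exact ⟨⟨p, hp⟩, ⟨q, hq⟩, e⟩
  obtain ⟨y, rfl⟩ := IsIntegrallyClosed.algebraMap_eq_of_integral i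
  exact y.2

theorem const (hg : g ∈ Algebra.adjoin ℂ (range z)) :
    ∃ c : ℂ, ∀ P : Pl K, (∀ j, 0 < P.ord (z j)) → Cb.Mx P (g - algebraMap ℂ K c) := by
  induction hg using Algebra.adjoin_induction with
  | mem a ha =>
    obtain ⟨j, rfl⟩ := ha
    exact ⟨0, fun P h => by simpa using Cb.mx_iff.2 (Or.inr (h j))⟩
  | algebraMap c => exact ⟨c, fun P _ => by simpa using Cb.mx_zero⟩
  | add a b _ _ ha hb =>
    obtain ⟨c, hc⟩ := ha
    obtain ⟨d, hd⟩ := hb
    exact ⟨c + d, fun P h => by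
      convert (hc P h).add (hd P h) using 1
      rw [map_add]; ring⟩
  | mul a b ka _ ha hb =>
    obtain ⟨c, hc⟩ := ha
    obtain ⟨d, hd⟩ := hb
    exact ⟨c * d, fun P h => by
      convert ((hc P h).mul (P.con d)).add ((hd P h).mul (mem_ring (of_pos h) ka)) using 1
      rw [map_mul]; ring⟩

/-- the origin is one point of the model -/
theorem Rat.cle (h : Rat z) (hP : ∀ j, 0 < P.ord (z j)) (hQ : ∀ j, 0 < Q.ord (z j)) :
    CLe (mx (sy z)) P Q :=
  (ch_one (of_pos hP)).cle h.ff (carQ_mx _) (ch_one (of_pos hQ)) fun b hb w => by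
    obtain ⟨c, hc⟩ := const (h.af hb)
    have b0 : b ≠ 0 := fun e => by simp [e] at w
    have m : Cb.Mx Q (algebraMap ℂ K c) := by
      simpa using (Cb.mx_iff.2 (Or.inr w)).sub (hc Q hQ)
    have c0 := (Cb.mx_iff.1 m).resolve_right (by rw [Q.ord_const]; exact lt_irrefl _)
    have := hc P hP
    rw [c0, sub_zero] at this
    exact (Cb.mx_iff.1 this).resolve_left b0

/-- polynomials have bounded degree -/
theorem exists_deg {s : Finset K} (hs : ∀ g ∈ s, g ∈ Algebra.adjoin ℂ (range z)) :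
    ∃ e : ℝ, 0 ≤ e ∧ ∀ g ∈ s, Sec (e • mx (sy z)) g := by
  have l : 0 ≤ mx (sy z) := mx_nonneg (mem_sy.2 (Or.inl rfl))
  have : ∀ g ∈ s, ∃ m : ℕ, Sec ((m : ℝ) • mx (sy z)) g := fun g hg => by
    simpa using mem_af (hs g hg) (sec_one.2 l)
  choose! m hm using this
  refine ⟨(s.sup m : ℕ), Nat.cast_nonneg _, fun g hg => (hm g hg).mono ?_⟩
  exact smul_le_smul_of_nonneg_right (Nat.cast_le.2 (Finset.le_sup hg)) l

end Vale.Agent.P283R.D
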