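import Vale.Agent.P283R.D.Cen

/-!
# P283R, block D: semicontinuity on affine space, the form with linear systems
-/

open Set
open Vale.Agent.P297Z

namespace Vale.Agent.P283R.D

open Vale.Agent.P287D

variable {n N : ℕ} {K : Type} [Field K] [Algebra ℂ K] {P : Pl K} {f g : K}

open Classical in
/-- the multiplicity of the maximal ideal of the origin -/
noncomputable def mu (z : Fin N → K) : BD K := -mx (Finset.univ.image z)

theorem mu_le {z : Fin N → K} (h : ∀ j, z j ≠ 0) (P : Pl K) (j : Fin N) :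
    mu z P ≤ P.ord (z j) := by
  classical
  have := P.le_mz (s := Finset.univ.image z) (Finset.mem_image_of_mem z (Finset.mem_univ j)) (h j)
  have e : (-P.ord (z j) : ℝ) ≤ mx (Finset.univ.image z) P := by rw [mx_apply]; exact_mod_cast this
  simp only [mu, Pi.neg_apply]
  convert neg_le.1 e

theorem exists_mu {z : Fin (n + 1) → K} (h : ∀ j, z j ≠ 0) (P : Pl K) :
    ∃ j, mu z P = P.ord (z j) := by
  classical
  obtain ⟨g, hg, -, e⟩ := P.exists_mz (s := Finset.univ.image z)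
    ⟨z 0, Finset.mem_image_of_mem z (Finset.mem_univ 0), h 0⟩
  obtain ⟨j, -, rfl⟩ := Finset.mem_image.1 hg
  refine ⟨j, ?_⟩
  have e' : -mx (Finset.univ.image z) P = P.ord (z j) := by rw [mx_apply, e]; simp
  simp only [mu, Pi.neg_apply]
  convert e'

theorem smp_mu (z : Fin N → K) : Smp (-mu z) := by rw [mu, neg_neg]; exact smp_mx _

theorem mu_lam {z : Fin (n + 1) → K} (h : ∀ j, z j ≠ 0) : 0 ≤ mx (sy z) + mu z := fun P => by
  obtain ⟨j, e⟩ := exists_mu h P
  have := dv_add_mx_nonneg (mem_sy.2 (Or.inr ⟨j, rfl⟩)) (h j) P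
  rw [Pi.add_apply, dv_apply] at this
  rw [Pi.add_apply, e, add_comm]
  exact this

open Classical in
theorem mx_pw {z : Fin (n + 1) → K} (h : ∀ j, z j ≠ 0) (f0 : f ≠ 0) (k : ℕ) (P : Pl K) :
    mx (insert f (Finset.univ.image fun j => z j ^ k)) P = -min (P.ord f : ℝ) (k * mu z P) := by
  obtain ⟨g, hg, -, e⟩ := P.exists_mz (s := insert f (Finset.univ.image fun j => z j ^ k))
    ⟨f, Finset.mem_insert_self _ _, f0⟩
  obtain ⟨j, ej⟩ := exists_mu h P
  have a := dv_add_mx_nonneg (Finset.mem_insert_self f (Finset.univ.image fun j => z j ^ k)) f0 P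
  have b := dv_add_mx_nonneg (Finset.mem_insert_of_mem (b := f) (Finset.mem_image_of_mem
    (fun j => z j ^ k) (Finset.mem_univ j))) (pow_ne_zero k (h j)) P
  rw [dv_pow] at b
  simp only [Pi.add_apply, Pi.smul_apply, dv_apply, smul_eq_mul, Pi.zero_apply, ← ej] at a b
  refine le_antisymm ?_ (neg_le.1 (le_min (by linarith) (by linarith)))
  rw [mx_apply, e]
  rcases Finset.mem_insert.1 hg with rfl | hg
  · exact_mod_cast neg_le_neg (min_le_left (P.ord g : ℝ) (k * mu z P))
  · obtain ⟨i, -, rfl⟩ := Finset.mem_image.1 hg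
    have := mul_le_mul_of_nonneg_left (mu_le h P i) (Nat.cast_nonneg (α := ℝ) k)
    rw [Pl.ord_pow]
    push_cast
    exact neg_le_neg ((min_le_right _ _).trans this)

theorem core {z : Fin (n + 1) → K} (h : Rat z) {Γ₀ : BD K} (hb : Big (mx (sy z)))
    (d0 : Dsc (mx (sy z)) Γ₀) (b0 : Bdy n (mx (sy z)) Γ₀) (k0 : Klt (n + 1) Γ₀)
    (e0 : ∀ P, (∀ j, z j ∈ P.ring) → dsc (n + 1) Γ₀ P = kap z P)
    (hf : f ∈ Algebra.adjoin ℂ (range z)) (f0 : f ≠ 0) {U : Finset K} (U0 : Nz U)
    (hU : ∀ g ∈ U, g ∈ Algebra.adjoin ℂ (range z)) {a b c ρ : ℝ} {k : ℕ} (ha : 0 ≤ a)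
    (hb' : 0 ≤ b) (hc : 0 ≤ c) (hk : ρ < a * k)
    (H1 : ∀ P : Pl K, (∀ j, 0 < P.ord (z j)) →
      a * min (P.ord f : ℝ) (k * mu z P) - b * mx U P + c * mu z P ≤ kap z P + 1)
    (H2 : ∀ P : Pl K, (∀ j, z j ∈ P.ring) → (∃ j, P.ord (z j) = 0) → -(b * mx U P) ≤ kap z P + 1)
    {u : Pl K} (hu : ∀ j, 0 < u.ord (z j))
    (u1 : kap z u + 1 ≤ a * min (u.ord f : ℝ) (k * mu z u) - b * mx U u + c * mu z u)
    (u2 : kap z u + 1 ≤ ρ * mu z u) (v : Pl K) (hv : ∀ j, 0 < v.ord (z j)) :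
    a * v.ord f - b * mx U v + c * mu z v ≤ kap z v + 1 := by
  classical
  have z0 := h.ind.ne_zero
  set Λ := mx (sy z) with hΛ
  set s : Finset K := insert f (Finset.univ.image fun j => z j ^ k) with hs
  have es : ∀ P : Pl K, mx s P = -min (P.ord f : ℝ) (k * mu z P) := mx_pw z0 f0 k
  obtain ⟨e, he, se⟩ := exists_deg (z := z) (s := insert f U) fun g hg =>
    (Finset.mem_insert.1 hg).elim (fun w => w ▸ hf) (hU g)
  have p1 : 0 ≤ dv f + e • Λ := (se f (Finset.mem_insert_self _ _)).resolve_left f0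
  have p2 : mx U ≤ e • Λ := mx_le U0 fun g hg => se g (Finset.mem_insert_of_mem hg)
  have p3 : 0 ≤ dv f + mx s := dv_add_mx_nonneg (Finset.mem_insert_self _ _) f0
  have p4 := mu_lam z0
  have sΛ : Smp Λ := smp_mx _
  have mn : ∀ P : Pl K, (∀ j, z j ∈ P.ring) → 0 ≤ mu z P := fun P w => by
    have := p4 P
    rwa [Pi.add_apply, lam_zero w, zero_add] at this
  have ap : ∀ P : Pl K, (∀ j, z j ∈ P.ring) → 0 < kap z P + 1 := fun P w => by
    linarith [k0 P, e0 P w]
  have gv : ∀ P : Pl K, (∀ j, z j ∈ P.ring) →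
      (a • (e • Λ - mx s) + b • (e • Λ - mx U) + c • (Λ + mu z)) P =
        a * min (P.ord f : ℝ) (k * mu z P) - b * mx U P + c * mu z P := fun P w => by
    simp only [Pi.add_apply, Pi.smul_apply, Pi.sub_apply, smul_eq_mul, es, hΛ, lam_zero w]
    ring
  have lc : ∀ P : Pl K, (∀ j, z j ∈ P.ring) →
      a * min (P.ord f : ℝ) (k * mu z P) - b * mx U P + c * mu z P ≤ kap z P + 1 := fun P w => by
    by_cases q : ∃ j, P.ord (z j) = 0
    · obtain ⟨j, q⟩ := q
      have m0 : mu z P = 0 := le_antisymm (by simpa [q] using mu_le z0 P j) (mn P w)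
      have := H2 P w ⟨j, q⟩
      have o : (0 : ℝ) ≤ P.ord f := by exact_mod_cast Pl.ord_nonneg_of_mem _ (mem_ring w hf)
      rw [m0, mul_zero, min_eq_right o]
      linarith
    · exact H1 P fun j => (Pl.ord_nonneg_of_mem _ (w j)).lt_of_ne' fun y => q ⟨j, y⟩
  have un : ∀ P : Pl K, (∀ j, z j ∈ P.ring) → mx U P ≤ 0 := fun P w => by
    have := p2 P
    rwa [Pi.smul_apply, hΛ, lam_zero w, smul_zero] at this
  have ρ0 : 0 ≤ ρ := by
    have := (ap u (of_pos hu)).trans_le u2
    exact (pos_of_mul_pos_left this (mn u (of_pos hu))).le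
  have ge : a • (e • Λ - mx s) + b • (e • Λ - mx U) + c • (Λ + mu z) + a • (dv f + mx s) =
      a • (dv f + e • Λ) + b • (e • Λ - mx U) + c • (Λ + mu z) := by module
  have ds : Dsc (Λ + mx s) (mx s) := .add_self sΛ (smp_mx s)
  have r := semi h.ff (Λ := Λ) (Λ' := Λ + mx s) (Γ₀ := Γ₀)
    (G := a • (e • Λ - mx s) + b • (e • Λ - mx U) + c • (Λ + mu z)) (D := a • (dv f + mx s))
    (M := Λ + mu z) (x := u) (u := u) (c := a * e + b * e + c + 1) (ρ := ρ) sΛ hb
    (fun R w => h.cle hu (pos_of_cle hu w)) d0 b0 k0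
    (ge ▸ add_nonneg (add_nonneg (smul_nonneg ha p1) (smul_nonneg hb' (sub_nonneg.2 p2)))
      (smul_nonneg hc p4)) (smul_nonneg ha p3) p4 ρ0 (by positivity)
    (by
      convert (((sΛ.add ((Smp.of_prn (neg_mem (dv_mem_Prn f))).smul ha)).add
        ((smp_mx U).smul hb')).add ((smp_mu z).smul hc)).nef using 1
      rw [ge]; module)
    (by
      convert ((sΛ.smul (c := a * e + b * e + c) (by positivity)).add (smp_mu z)).nef using 1
      module) (.self_add sΛ (smp_mx s)) (((Dsc.dv ds.smp f).add ds).smul a)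
    (fun R w => by
      have w' := ring_of_cle hu w
      rw [gv R w', e0 R w']; exact lc R w') (.refl _ _)
    (by rw [gv u (of_pos hu), e0 u (of_pos hu)]; exact u1)
    (by rw [e0 u (of_pos hu), Pi.add_apply, hΛ, lam_zero (of_pos hu), zero_add]; exact u2)
    (fun R w y Q t => by
      have w' := ring_of_cle hu w
      rw [e0 R w', Pi.add_apply, hΛ, lam_zero w', zero_add] at y
      have m1 : 0 < mu z R := pos_of_mul_pos_right ((ap R w').trans_le y) ρ0
      have m2 : min (R.ord f : ℝ) (k * mu z R) < k * mu z R := by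
        refine lt_of_mul_lt_mul_left ?_ ha
        have := mul_lt_mul_of_pos_right hk m1
        have h1 := mul_nonneg hb' (neg_nonneg.2 (un R w'))
        have h2 := mul_nonneg hc m1.le
        have h3 := lc R w'
        nlinarith
      obtain ⟨j, ej⟩ := exists_mu z0 Q
      have m3 := Ae.cle_dsc ((Dsc.dv ds.smp (z j ^ k)).add ds) (dv_add_mx_nonneg
        (Finset.mem_insert_of_mem (Finset.mem_image_of_mem _ (Finset.mem_univ j)))
        (pow_ne_zero k (z0 j))) t (by
          have := mul_le_mul_of_nonneg_left (mu_le z0 R j) (Nat.cast_nonneg (α := ℝ) k)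
          rw [dv_pow]
          simp only [Pi.add_apply, Pi.smul_apply, dv_apply, smul_eq_mul, es]
          linarith)
      rw [dv_pow] at m3
      simp only [Pi.add_apply, Pi.smul_apply, dv_apply, smul_eq_mul, es, ← ej] at m3 ⊢
      rw [min_eq_left ((min_lt_iff.1 (by linarith : min (Q.ord f : ℝ) (k * mu z Q) <
        k * mu z Q)).resolve_right (lt_irrefl _)).le]
      simp) v (h.cle hv hu)
  rw [ge, e0 v (of_pos hv)] at r
  simp only [Pi.add_apply, Pi.smul_apply, Pi.sub_apply, smul_eq_mul, dv_apply, hΛ,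
    lam_zero (of_pos hv)] at r
  linarith

end Vale.Agent.P283R.D
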